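import Vale.Agent.P235.R2.H598.Clos

set_option autoImplicit false
set_option linter.all false

/-!
# Line TT, row [T3]: compactness of the `L₁` metrics on a finite set
-/

namespace Vale.Agent.P235.K5.EX.H964

open Vale.Agent.P235

/-- **[T3]**: an edge which is almost exact for every `δ` is exact. -/
theorem t3 {V : Type} [Finite V] {ρ : V → V → ℝ} (hρ : IsMet ρ) {c : ℝ} {s t : V}
    (h : ∀ δ : ℝ, 0 < δ → ∃ F : V → V → ℝ, IsL1 F ∧ (∀ x y, c * ρ x y ≤ F x y) ∧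
      (∀ x y, F x y ≤ ρ x y) ∧ (1 - δ) * ρ s t ≤ F s t) :
    ∃ F : V → V → ℝ, IsL1 F ∧ F s t = ρ s t ∧ (∀ x y, c * ρ x y ≤ F x y) ∧
      ∀ x y, F x y ≤ ρ x y := by
  classical
  have hcs : c * ρ s t ≤ ρ s t := by
    obtain ⟨F, _, h1, h2, _⟩ := h 1 one_pos
    exact (h1 s t).trans (h2 s t)
  obtain ⟨lo, hlo⟩ : ∃ lo : V → V → ℝ, lo = fun x y =>
      if (x = s ∧ y = t) ∨ (x = t ∧ y = s) then ρ s t else c * ρ x y := ⟨_, rfl⟩
  have hlim := R2.H598.isL1_limit (V := V) (d := ρ) (lo := lo) (by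
    intro n
    have hn : (0 : ℝ) < 1 / ((n : ℝ) + 1) := by positivity
    have hn1 : 1 / ((n : ℝ) + 1) ≤ 1 := by
      rw [div_le_one (by positivity)]
      have : (0 : ℝ) ≤ n := Nat.cast_nonneg n
      linarith
    obtain ⟨F, hF, h1, h2, h3⟩ := h _ hn
    refine ⟨F, hF, h2, ?_⟩
    intro x y
    rw [hlo]
    show (1 - 1 / ((n : ℝ) + 1)) *
      (if (x = s ∧ y = t) ∨ (x = t ∧ y = s) then ρ s t else c * ρ x y) ≤ F x y
    split_ifs with hxy
    · rcases hxy with ⟨rfl, rfl⟩ | ⟨rfl, rfl⟩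
      · exact h3
      · rw [hF.symm x y]
        exact h3
    · rcases le_total 0 (c * ρ x y) with h0 | h0
      · refine le_trans ?_ (h1 x y)
        nlinarith
      · refine le_trans ?_ (hF.nonneg x y)
        exact mul_nonpos_of_nonneg_of_nonpos (by linarith) h0)
  obtain ⟨F, hF, h1, h2⟩ := hlim
  have hst : F s t = ρ s t := by
    refine le_antisymm (h1 s t) ?_
    have := h2 s t
    rw [hlo] at this
    have e : (if (s = s ∧ t = t) ∨ (s = t ∧ t = s) then ρ s t else c * ρ s t) = ρ s t :=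
      if_pos (Or.inl ⟨rfl, rfl⟩)
    rw [← e]
    exact this
  refine ⟨F, hF, hst, ?_, h1⟩
  intro x y
  have h3 := h2 x y
  rw [hlo] at h3
  by_cases hxy : (x = s ∧ y = t) ∨ (x = t ∧ y = s)
  · rcases hxy with ⟨rfl, rfl⟩ | ⟨rfl, rfl⟩
    · rw [hst]
      exact hcs
    · rw [hF.symm x y, hst, hρ.symm x y]
      exact hcs
  · have e : (if (x = s ∧ y = t) ∨ (x = t ∧ y = s) then ρ s t else c * ρ x y) = c * ρ x y :=
      if_neg hxy
    rw [← e]
    exact h3

end Vale.Agent.P235.K5.EX.H964
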